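import Vale.Agent.N310X.Exp

namespace Vale.Agent.Results.P310.A0ExpTime

open Filter Vale.Agent.P310 Vale.Agent.N310X

/-- With `k` as part of the input, in unary or in binary: (1) `k`-WL equivalence is complete for
exponential time; (2) the lower bound `n ^ (c k)` holds for all `k` between `k₀` and `n ^ c` at
once. -/
theorem result :
    ∀ code : ℕ → List Bool, (code = fun k => List.replicate k true) ∨ code = Nat.bits →
      (wlLang code ∈ EXPTIME ∧ ∀ L ∈ EXPTIME, Reduces L (wlLang code)) ∧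
      ∃ c : ℝ, 0 < c ∧ ∃ k₀ : ℕ, ∀ M (T : ℕ → ℕ → ℕ),
        (∀ k, 2 ≤ k → ∀ (n : ℕ) (G H : SimpleGraph (Fin n)),
          Answers M (word (code k) G H) (WLEquiv k G H) (T k n)) →
        ∀ᶠ n : ℕ in atTop, ∀ k : ℕ, k₀ ≤ k → (k : ℝ) ≤ (n : ℝ) ^ c →
          (n : ℝ) ^ (c * k) ≤ T k n := by
  intro code h
  have hc : Code code := by
    rcases h with rfl | rfl
    exacts [code_unary, code_binary]
  exact ⟨⟨mem_exp hc, fun _ hL => hard hc hL⟩, uniform hc⟩

end Vale.Agent.Results.P310.A0ExpTime
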